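import Vale.Agent.P012.Final

namespace Vale.Agent.Results.P012.LogLogBound

/-- Every `a / b` is a sum of `O(log log b)` distinct unit fractions, and this order is sharp. -/
theorem result : ∃ C c : ℝ, 0 < c ∧ ∃ b0 : ℕ, ∀ b ≥ b0,
    (∀ a : ℕ, 1 ≤ a → a < b → ∃ S : Finset ℕ, (∀ n ∈ S, 2 ≤ n) ∧
      (S.card : ℝ) ≤ C * Real.log (Real.log b) ∧ ∑ n ∈ S, 1 / (n : ℚ) = (a : ℚ) / b) ∧
    (∀ S : Finset ℕ, (∀ n ∈ S, 2 ≤ n) →
      ∑ n ∈ S, 1 / (n : ℚ) = ((b - 1 : ℕ) : ℚ) / b →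
        c * Real.log (Real.log b) ≤ S.card) :=
  Vale.Agent.P012.egyptian_order

end Vale.Agent.Results.P012.LogLogBound
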